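import Vale.Agent.P174.Rational

namespace Vale.Agent.P174

noncomputable section

open Monoid.Coprod

universe u

section Comm

variable (G : Type u) [CommGroup G] (n : ℕ)

def abHom : Monoid.Coprod G (FreeGroup (Fin n)) →* G × Multiplicative (Fin n → ℤ) :=
  Monoid.Coprod.lift (MonoidHom.inl G _)
    ((MonoidHom.inr G _).comp (FreeGroup.lift fun j => Multiplicative.ofAdd (Pi.single j 1)))

lemma abHom_snd (y : Monoid.Coprod G (FreeGroup (Fin n))) : (abHom G n y).2 = expSum G n y := by
  have : (MonoidHom.snd G _).comp (abHom G n) = expSum G n := by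
    apply Monoid.Coprod.hom_ext
    · ext x
      simp [abHom, expSum]
    · ext x
      simp [abHom, expSum]
  exact DFunLike.congr_fun this y

end Comm

lemma mem_closure_range_comm {T : Type*} [CommGroup T] {m : ℕ} (v : Fin m → T) (y : T)
    (hy : y ∈ Subgroup.closure (Set.range v)) : ∃ c : Fin m → ℤ, y = ∏ i, v i ^ c i := by
  classical
  induction hy using Subgroup.closure_induction with
  | mem x hx =>
    obtain ⟨i, rfl⟩ := hx
    refine ⟨Pi.single i 1, ?_⟩
    rw [Finset.prod_eq_single i]
    · simp
    · intro j _ hj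
      simp [Pi.single_apply, hj]
    · simp
  | one => exact ⟨0, by simp⟩
  | mul a b _ _ ha hb =>
    obtain ⟨c, rfl⟩ := ha
    obtain ⟨c', rfl⟩ := hb
    exact ⟨c + c', by simp [zpow_add, Finset.prod_mul_distrib]⟩
  | inv a _ ha =>
    obtain ⟨c, rfl⟩ := ha
    exact ⟨-c, by simp⟩

theorem howie_of_commGroup (G : Type u) [CommGroup G] : HowieProperty G := by
  intro m n w hw
  set M : Subgroup (G × Multiplicative (Fin n → ℤ)) :=
    Subgroup.closure (Set.range fun i => abHom G n (w i)) with hM
  refine ⟨(G × Multiplicative (Fin n → ℤ)) ⧸ M, inferInstance,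
    (QuotientGroup.mk' M).comp (MonoidHom.inl G _),
    fun j => QuotientGroup.mk' M (1, Multiplicative.ofAdd (Pi.single j 1)), ?_, ?_⟩
  · rw [injective_iff_map_eq_one]
    intro g hg
    have hg' : ((g, 1) : G × Multiplicative (Fin n → ℤ)) ∈ M := by
      rw [← QuotientGroup.eq_one_iff]
      exact hg
    obtain ⟨c, hc⟩ := mem_closure_range_comm _ _ hg'
    have h2 := congrArg (fun t => Multiplicative.toAdd t.2) hc
    simp only [Prod.snd_prod, Prod.pow_snd, abHom_snd, toAdd_one] at h2
    rw [nonsingular_iff, ← LinearIndependent.iff_fractionRing ℤ ℚ,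
      Fintype.linearIndependent_iff] at hw
    have h3 : ∀ i, c i = 0 := by
      apply hw
      funext j
      have h4 := congrFun h2 j
      simp only [Pi.zero_apply, toAdd_prod, toAdd_zpow, Finset.sum_apply, Pi.smul_apply] at h4
      simp only [Finset.sum_apply, Pi.smul_apply, Pi.zero_apply]
      simp only [zsmul_eq_mul, expMatrix, Matrix.of_apply]
      have h5 := congrArg (Int.cast : ℤ → ℚ) h4
      push_cast at h5
      simpa using h5.symm
    have h6 : ((g, 1) : G × Multiplicative (Fin n → ℤ)) = 1 := by
      rw [hc]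
      simp [h3]
    exact congrArg Prod.fst h6
  · intro i
    have : Monoid.Coprod.lift ((QuotientGroup.mk' M).comp (MonoidHom.inl G _))
        (FreeGroup.lift fun j => QuotientGroup.mk' M (1, Multiplicative.ofAdd (Pi.single j 1))) =
        (QuotientGroup.mk' M).comp (abHom G n) := by
      apply Monoid.Coprod.hom_ext
      · ext x
        simp [abHom]
      · ext x
        simp [abHom]
    rw [this, MonoidHom.comp_apply, QuotientGroup.mk'_apply, QuotientGroup.eq_one_iff]
    exact Subgroup.subset_closure ⟨i, rfl⟩

theorem howie_of_comm (G : Type u) [Group G] (hc : ∀ a b : G, a * b = b * a) :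
    HowieProperty G := by
  letI : CommGroup G := { (inferInstance : Group G) with mul_comm := hc }
  exact howie_of_commGroup G

theorem howie_abelian_by_li (G : Type u) [Group G] (N : Subgroup G) [N.Normal]
    (hN : ∀ a ∈ N, ∀ b ∈ N, a * b = b * a) (hQ : LocallyIndicable (G ⧸ N)) :
    HowieProperty G := by
  apply howie_extension G N hQ
  apply howie_of_comm
  rintro ⟨a, ha⟩ ⟨b, hb⟩
  exact Subtype.ext (hN a ha b hb)

end

end Vale.Agent.P174
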