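import Vale.Agent.P174.Words

namespace Vale.Agent.P174

noncomputable section

open Monoid.Coprod

section Cert

variable {K X I H : Type*} [Group K] [Group H]

def flipB (b : Block K X I) : Block K X I := (b.1, b.2.1, !b.2.2)

lemma evB_flipB (f : K →* H) (h : X → H) (W : I → Word K X) (b : Block K X I) :
    evB f h W (flipB b) = (evB f h W b)⁻¹ := by
  obtain ⟨u, i, e⟩ := b
  cases e <;> simp [evB, flipB, sg, mul_assoc]

lemma evC_inv (f : K →* H) (h : X → H) (W : I → Word K X) (c : List (Block K X I)) :
    (evC f h W c)⁻¹ = evC f h W ((c.map flipB).reverse) := by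
  induction c with
  | nil => simp
  | cons b c ih =>
    rw [evC_cons, mul_inv_rev, ih, List.map_cons, List.reverse_cons, evC_append]
    simp [evB_flipB]

lemma exists_cert (W : I → Word K X) (y : Monoid.Coprod K (FreeGroup X))
    (hy : y ∈ Subgroup.normalClosure (Set.range fun i => uev (W i))) :
    ∃ c : List (Block K X I), y = evC inl (fun x => inr (FreeGroup.of x)) W c := by
  unfold Subgroup.normalClosure at hy
  induction hy using Subgroup.closure_induction with
  | mem x hx =>
    rw [Group.mem_conjugatesOfSet_iff] at hx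
    obtain ⟨a, ⟨i, rfl⟩, hc⟩ := hx
    rw [isConj_iff] at hc
    obtain ⟨t, rfl⟩ := hc
    obtain ⟨u, rfl⟩ := uev_surjective t
    exact ⟨[(u, i, true)], by simp [evB, sg, uev]⟩
  | one => exact ⟨[], by simp⟩
  | mul x y _ _ hx hy =>
    obtain ⟨a, rfl⟩ := hx
    obtain ⟨b, rfl⟩ := hy
    exact ⟨a ++ b, by rw [evC_append]⟩
  | inv x _ hx =>
    obtain ⟨a, rfl⟩ := hx
    exact ⟨_, evC_inv _ _ _ _⟩

end Cert

section Expo

variable {K X : Type*} (R : Type*) [Ring R]

def expoL : K ⊕ (X × Bool) → X →₀ R
  | Sum.inl _ => 0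
  | Sum.inr (x, true) => Finsupp.single x 1
  | Sum.inr (x, false) => Finsupp.single x (-1)

def expo (w : Word K X) : X →₀ R := (w.map (expoL R)).sum

@[simp] lemma expo_nil : expo R ([] : Word K X) = 0 := rfl

@[simp] lemma expo_cons (l : K ⊕ (X × Bool)) (w : Word K X) :
    expo R (l :: w) = expoL R l + expo R w := by simp [expo]

lemma expoL_cast (l : K ⊕ (X × Bool)) (x : X) :
    expoL R l x = ((expoL ℤ l x : ℤ) : R) := by
  classical
  rcases l with s | ⟨y, _ | _⟩ <;> simp [expoL, Finsupp.single_apply]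

lemma expo_cast (w : Word K X) (x : X) : expo R w x = ((expo ℤ w x : ℤ) : R) := by
  induction w with
  | nil => simp
  | cons l w ih => simp [expoL_cast R l x, ih]

end Expo

section Count

variable {K X I : Type*} [Group K]

open Classical in
def cntL : K ⊕ (X × Bool) → ℕ
  | Sum.inl s => if s = 1 then 0 else 1
  | Sum.inr _ => 0

def cnt (w : Word K X) : ℕ := (w.map cntL).sum

@[simp] lemma cnt_nil : cnt ([] : Word K X) = 0 := rfl

@[simp] lemma cnt_cons (l : K ⊕ (X × Bool)) (w : Word K X) :
    cnt (l :: w) = cntL l + cnt w := by simp [cnt]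

def meas (W : I → Word K X) (c : List (Block K X I)) : ℕ :=
  (c.map fun b => cnt b.1 + cnt (W b.2.1)).sum

@[simp] lemma meas_nil (W : I → Word K X) : meas W [] = 0 := rfl

@[simp] lemma meas_cons (W : I → Word K X) (b : Block K X I) (c : List (Block K X I)) :
    meas W (b :: c) = (cnt b.1 + cnt (W b.2.1)) + meas W c := by simp [meas]

end Count

end

end Vale.Agent.P174
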