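import Mathlib

namespace Vale.Agent.P174

noncomputable section

section LA

variable {p : ℕ} [Fact p.Prime]

def sh (Y : Type*) (τ : ZMod p) :
    (Y × ZMod p →₀ ZMod p) →ₗ[ZMod p] (Y × ZMod p →₀ ZMod p) :=
  Finsupp.lmapDomain (ZMod p) (ZMod p) (fun q => (q.1, q.2 + τ))

def prj (Y : Type*) : (Y × ZMod p →₀ ZMod p) →ₗ[ZMod p] (Y →₀ ZMod p) :=
  Finsupp.lmapDomain (ZMod p) (ZMod p) Prod.fst

def res (Y : Type*) : (Y × ZMod p →₀ ZMod p) →ₗ[ZMod p] (Y →₀ ZMod p) :=
  Finsupp.linearCombination (ZMod p)
    (fun q : Y × ZMod p => if q.2 = 0 then Finsupp.single q.1 1 else 0)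

def emb (Y : Type*) : (Y →₀ ZMod p) →ₗ[ZMod p] (Y × ZMod p →₀ ZMod p) :=
  Finsupp.lmapDomain (ZMod p) (ZMod p) (fun y => (y, 0))

variable {Y : Type*}

@[simp] lemma sh_single (τ : ZMod p) (q : Y × ZMod p) (c : ZMod p) :
    sh Y τ (Finsupp.single q c) = Finsupp.single (q.1, q.2 + τ) c := by
  simp [sh, Finsupp.lmapDomain_apply, Finsupp.mapDomain_single]

@[simp] lemma prj_single (q : Y × ZMod p) (c : ZMod p) :
    prj Y (Finsupp.single q c) = Finsupp.single q.1 c := by
  simp [prj, Finsupp.lmapDomain_apply, Finsupp.mapDomain_single]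

@[simp] lemma emb_single (y : Y) (c : ZMod p) :
    emb Y (Finsupp.single y c) = Finsupp.single (y, (0 : ZMod p)) c := by
  simp [emb, Finsupp.lmapDomain_apply, Finsupp.mapDomain_single]

lemma res_single (q : Y × ZMod p) (c : ZMod p) :
    res Y (Finsupp.single q c) = if q.2 = 0 then Finsupp.single q.1 c else 0 := by
  simp only [res, Finsupp.linearCombination_single]
  split_ifs <;> simp

lemma sh_sh (τ τ' : ZMod p) (v : Y × ZMod p →₀ ZMod p) :
    sh Y τ (sh Y τ' v) = sh Y (τ' + τ) v := by
  induction v using Finsupp.induction_linear with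
  | zero => simp
  | add f g hf hg => simp [hf, hg]
  | single q c => simp [add_assoc]

lemma sh_zero (v : Y × ZMod p →₀ ZMod p) : sh Y 0 v = v := by
  induction v using Finsupp.induction_linear with
  | zero => simp
  | add f g hf hg => simp [hf, hg]
  | single q c => simp

lemma prj_sh (τ : ZMod p) (v : Y × ZMod p →₀ ZMod p) : prj Y (sh Y τ v) = prj Y v := by
  induction v using Finsupp.induction_linear with
  | zero => simp
  | add f g hf hg => simp [hf, hg]
  | single q c => simp

lemma sh_apply (τ : ZMod p) (v : Y × ZMod p →₀ ZMod p) (y : Y) (ν : ZMod p) :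
    sh Y τ v (y, ν + τ) = v (y, ν) := by
  have hinj : Function.Injective (fun q : Y × ZMod p => (q.1, q.2 + τ)) := by
    intro a b h
    simp only [Prod.mk.injEq, add_left_inj] at h
    exact Prod.ext h.1 h.2
  exact Finsupp.mapDomain_apply hinj v (y, ν)

lemma res_apply (v : Y × ZMod p →₀ ZMod p) (y : Y) : res Y v y = v (y, 0) := by
  classical
  induction v using Finsupp.induction_linear with
  | zero => simp
  | add f g hf hg => simp [hf, hg]
  | single q c =>
    rw [res_single]
    obtain ⟨a, b⟩ := q
    by_cases hb : b = 0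
    · subst hb
      simp [Finsupp.single_apply]
    · simp [hb]

lemma sum_res_sh (v : Y × ZMod p →₀ ZMod p) : ∑ μ : ZMod p, res Y (sh Y μ v) = prj Y v := by
  classical
  induction v using Finsupp.induction_linear with
  | zero => simp
  | add f g hf hg => simp [Finset.sum_add_distrib, hf, hg]
  | single q c =>
    simp only [sh_single, res_single, prj_single]
    rw [Finset.sum_eq_single (-q.2)]
    · simp
    · intro b _ hb
      rw [if_neg]
      intro h
      exact hb (eq_neg_of_add_eq_zero_right h)
    · simp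

lemma sum_sh_emb_res (l : Y × ZMod p →₀ ZMod p) (hl : sh Y 1 l = l) :
    ∑ μ : ZMod p, sh Y μ (emb Y (res Y l)) = l := by
  classical
  have h1 : ∀ (y : Y) (ν : ZMod p), l (y, ν + 1) = l (y, ν) := by
    intro y ν
    conv_lhs => rw [← hl]
    exact sh_apply 1 l y ν
  have h2 : ∀ (y : Y) (n : ℕ), l (y, (n : ZMod p)) = l (y, 0) := by
    intro y n
    induction n with
    | zero => simp
    | succ n ih => rw [Nat.cast_succ, h1, ih]
  have h3 : ∀ (y : Y) (ν : ZMod p), l (y, ν) = l (y, 0) := by
    intro y ν
    have := h2 y ν.val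
    rwa [ZMod.natCast_zmod_val] at this
  have h4 : ∀ (c : Y →₀ ZMod p) (μ : ZMod p) (y : Y) (ν : ZMod p),
      sh Y μ (emb Y c) (y, ν) = if μ = ν then c y else 0 := by
    intro c μ y ν
    induction c using Finsupp.induction_linear with
    | zero => simp
    | add f g hf hg =>
      simp only [map_add, Finsupp.add_apply, hf, hg]
      split_ifs <;> simp
    | single a b =>
      simp only [emb_single, sh_single, zero_add, Finsupp.single_apply, Prod.mk.injEq]
      by_cases h1 : a = y <;> by_cases h2 : μ = ν <;> simp [h1, h2]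
  ext ⟨y, ν⟩
  rw [Finsupp.finsetSum_apply]
  simp only [h4, Finset.sum_ite_eq', Finset.mem_univ, if_true, res_apply]
  exact (h3 y ν).symm

lemma sh_one_pow (n : ℕ) (v : Y × ZMod p →₀ ZMod p) :
    ((sh Y 1 : Module.End (ZMod p) _) ^ n) v = sh Y (n : ZMod p) v := by
  induction n with
  | zero => simp [sh_zero]
  | succ n ih =>
    rw [pow_succ', Module.End.mul_apply, ih, sh_sh, Nat.cast_succ]

lemma sh_sub_one_pow :
    ((sh Y 1 - 1 : Module.End (ZMod p) (Y × ZMod p →₀ ZMod p)) ^ p) = 0 := by
  have h1 : ((Polynomial.X - 1 : Polynomial (ZMod p)) ^ p) = Polynomial.X ^ p - 1 := by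
    rw [sub_pow_char, one_pow]
  have h2 := congrArg (Polynomial.aeval (sh Y 1 : Module.End (ZMod p) _)) h1
  simp only [map_pow, map_sub, Polynomial.aeval_X, map_one] at h2
  rw [h2]
  refine LinearMap.ext fun v => ?_
  rw [LinearMap.sub_apply, sh_one_pow]
  simp [sh_zero]

variable {I X : Type*}

theorem linearIndependent_cover (E : I → (X × ZMod p →₀ ZMod p))
    (ha : LinearIndependent (ZMod p) (fun i => prj X (E i))) :
    LinearIndependent (ZMod p) (fun q : I × ZMod p => sh X q.2 (E q.1)) := by
  classical
  set T : (I × ZMod p →₀ ZMod p) →ₗ[ZMod p] (X × ZMod p →₀ ZMod p) :=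
    Finsupp.linearCombination (ZMod p) (fun q : I × ZMod p => sh X q.2 (E q.1)) with hT
  have hTs : ∀ (μ : ZMod p) (l : I × ZMod p →₀ ZMod p), T (sh I μ l) = sh X μ (T l) := by
    intro μ l
    induction l using Finsupp.induction_linear with
    | zero => simp
    | add f g hf hg => simp [hf, hg]
    | single q c => simp [hT, Finsupp.linearCombination_single, sh_sh]
  have hfix : ∀ l : I × ZMod p →₀ ZMod p, sh I 1 l = l → T l = 0 → l = 0 := by
    intro l hl hTl
    have h1 := sum_sh_emb_res l hl
    have h2 : prj X (T (emb I (res I l))) = 0 := by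
      rw [← sum_res_sh]
      have : ∑ μ : ZMod p, res X (sh X μ (T (emb I (res I l)))) = res X (T l) := by
        conv_rhs => rw [← h1]
        simp [map_sum, hTs]
      rw [this, hTl, map_zero]
    have h3 : ∀ c : I →₀ ZMod p, prj X (T (emb I c)) =
        Finsupp.linearCombination (ZMod p) (fun i => prj X (E i)) c := by
      intro c
      induction c using Finsupp.induction_linear with
      | zero => simp
      | add f g hf hg => simp [hf, hg]
      | single a b => simp [hT, Finsupp.linearCombination_single, prj_sh]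
    rw [h3] at h2
    have h4 : res I l = 0 := (linearIndependent_iff.mp ha) _ h2
    rw [← h1, h4]
    simp
  have hind : ∀ (j : ℕ) (l : I × ZMod p →₀ ZMod p),
      ((sh I 1 - 1 : Module.End (ZMod p) _) ^ j) l = 0 → T l = 0 → l = 0 := by
    intro j
    induction j with
    | zero => intro l hl _; simpa using hl
    | succ j ih =>
      intro l hl hTl
      have h1 : (sh I 1 - 1 : Module.End (ZMod p) _) l = 0 := by
        apply ih
        · rw [pow_succ, Module.End.mul_apply] at hl
          exact hl
        · rw [LinearMap.sub_apply, map_sub, hTs, hTl]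
          simp [hTl]
      apply hfix l _ hTl
      rw [LinearMap.sub_apply, Module.End.one_apply, sub_eq_zero] at h1
      exact h1
  rw [linearIndependent_iff]
  intro l hl
  apply hind p l _ hl
  rw [sh_sub_one_pow]
  simp

end LA

end

end Vale.Agent.P174
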