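import Vale.Agent.P174.Cover
import Vale.Agent.P174.LinAlg

namespace Vale.Agent.P174

noncomputable section

section CoverExpo

variable {p : ℕ} [Fact p.Prime] {K K₁ X I : Type*}
variable (φ : K → ZMod p) (ξ : X → ZMod p) (γ : ZMod p → K → K₁)

lemma expoL_rwL_shift (ν τ : ZMod p) (l : K ⊕ (X × Bool)) :
    expoL (ZMod p) (rwL ξ γ (ν + τ) l) = sh X τ (expoL (ZMod p) (rwL ξ γ ν l)) := by
  rcases l with s | ⟨x, _ | _⟩
  · simp [expoL, rwL]
  · simp only [expoL, rwL, sh_single]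
    congr 2
    abel
  · simp [expoL, rwL]

lemma expo_rwW_shift (μ τ : ZMod p) (w : Word K X) :
    expo (ZMod p) (rwW φ ξ γ (μ + τ) w) = sh X τ (expo (ZMod p) (rwW φ ξ γ μ w)) := by
  induction w with
  | nil => simp
  | cons l w ih =>
    simp only [rwW_cons, expo_cons, map_add, ih]
    congr 1
    rw [← expoL_rwL_shift]
    congr 2
    abel

lemma prj_expoL_rwL (ν : ZMod p) (l : K ⊕ (X × Bool)) :
    prj X (expoL (ZMod p) (rwL ξ γ ν l)) = expoL (ZMod p) l := by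
  rcases l with s | ⟨x, _ | _⟩ <;> simp [expoL, rwL]

lemma prj_expo_rwW (μ : ZMod p) (w : Word K X) :
    prj X (expo (ZMod p) (rwW φ ξ γ μ w)) = expo (ZMod p) w := by
  induction w with
  | nil => simp
  | cons l w ih => simp only [rwW_cons, expo_cons, map_add, ih, prj_expoL_rwL]

theorem nonsingular_cover (W : I → Word K X)
    (h : LinearIndependent (ZMod p) fun i => expo (ZMod p) (W i)) :
    LinearIndependent (ZMod p) fun q => expo (ZMod p) (rwS φ ξ γ W q) := by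
  have h1 : LinearIndependent (ZMod p)
      (fun i => prj X (expo (ZMod p) (rwW φ ξ γ 0 (W i)))) := by
    simpa only [prj_expo_rwW] using h
  have h2 := linearIndependent_cover _ h1
  convert h2 using 2 with q
  have := expo_rwW_shift φ ξ γ 0 q.2 (W q.1)
  rw [zero_add] at this
  exact this

end CoverExpo

section CoverCount

variable {K K₁ X I F : Type*} [Group K] [Group K₁] [AddCommGroup F]
variable (φ : K → F) (ξ : X → F)

lemma cntL_rwL_le (γ : F → K → K₁) (hγ1 : ∀ μ, γ μ 1 = 1) (ν : F) (l : K ⊕ (X × Bool)) :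
    cntL (rwL ξ γ ν l) ≤ cntL l := by
  rcases l with s | ⟨x, _ | _⟩
  · by_cases hs : s = 1
    · subst hs
      simp [cntL, rwL, hγ1]
    · simp only [cntL, rwL, hs, if_false]
      split_ifs <;> simp
  · simp [cntL, rwL]
  · simp [cntL, rwL]

lemma cnt_rwW_le (γ : F → K → K₁) (hγ1 : ∀ μ, γ μ 1 = 1) (μ : F) (w : Word K X) :
    cnt (rwW φ ξ γ μ w) ≤ cnt w := by
  induction w with
  | nil => simp
  | cons l w ih =>
    simp only [rwW_cons, cnt_cons]
    have := cntL_rwL_le ξ γ hγ1 (μ + lev φ ξ w) l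
    omega

lemma exists_drop_word (hφ1 : φ 1 = 0) (w : Word K X) (μ : F)
    (hw : ∃ a, Sum.inl a ∈ w ∧ φ a ≠ 0) :
    ∃ a ν, φ a ≠ 0 ∧ ∀ γ : F → K → K₁, (∀ μ, γ μ 1 = 1) → γ ν a = 1 →
      cnt (rwW φ ξ γ μ w) < cnt w := by
  induction w with
  | nil => obtain ⟨a, ha, _⟩ := hw; simp at ha
  | cons l w ih =>
    obtain ⟨a, ha, hφa⟩ := hw
    rcases List.mem_cons.mp ha with rfl | ha'
    · refine ⟨a, μ + lev φ ξ w, hφa, fun γ hγ1 hγa => ?_⟩
      have ha1 : a ≠ 1 := by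
        rintro rfl
        exact hφa hφ1
      have := cnt_rwW_le φ ξ γ hγ1 μ w
      simp only [rwW_cons, cnt_cons, rwL, cntL, hγa, ha1, if_true, if_false]
      omega
    · obtain ⟨a', ν, h1, h2⟩ := ih ⟨a, ha', hφa⟩
      refine ⟨a', ν, h1, fun γ hγ1 hγa => ?_⟩
      have h3 := h2 γ hγ1 hγa
      have h4 := cntL_rwL_le ξ γ hγ1 (μ + lev φ ξ w) l
      simp only [rwW_cons, cnt_cons]
      omega

lemma meas_rw_le (γ : F → K → K₁) (hγ1 : ∀ μ, γ μ 1 = 1) (W : I → Word K X)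
    (c : List (Block K X I)) :
    meas (rwS φ ξ γ W) (c.map (rwB φ ξ γ)) ≤ meas W c := by
  induction c with
  | nil => simp
  | cons b c ih =>
    simp only [List.map_cons, meas_cons, rwB, rwS]
    have h1 := cnt_rwW_le φ ξ γ hγ1 (- lev φ ξ b.1) b.1
    have h2 := cnt_rwW_le φ ξ γ hγ1 (- lev φ ξ b.1) (W b.2.1)
    omega

lemma exists_drop_cert (hφ1 : φ 1 = 0) (W : I → Word K X) (c : List (Block K X I))
    (hc : ∃ b ∈ c, ∃ a, (Sum.inl a ∈ b.1 ∨ Sum.inl a ∈ W b.2.1) ∧ φ a ≠ 0) :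
    ∃ a ν, φ a ≠ 0 ∧ ∀ γ : F → K → K₁, (∀ μ, γ μ 1 = 1) → γ ν a = 1 →
      meas (rwS φ ξ γ W) (c.map (rwB φ ξ γ)) < meas W c := by
  induction c with
  | nil => obtain ⟨b, hb, _⟩ := hc; simp at hb
  | cons b c ih =>
    obtain ⟨b', hb', a, ha, hφa⟩ := hc
    rcases List.mem_cons.mp hb' with rfl | hb''
    · rcases ha with ha | ha
      · obtain ⟨a', ν, h1, h2⟩ :=
          exists_drop_word (K₁ := K₁) φ ξ hφ1 b'.1 (- lev φ ξ b'.1) ⟨a, ha, hφa⟩
        refine ⟨a', ν, h1, fun γ hγ1 hγa => ?_⟩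
        have h3 := h2 γ hγ1 hγa
        have h4 := cnt_rwW_le φ ξ γ hγ1 (- lev φ ξ b'.1) (W b'.2.1)
        have h5 := meas_rw_le φ ξ γ hγ1 W c
        simp only [List.map_cons, meas_cons, rwB, rwS]
        omega
      · obtain ⟨a', ν, h1, h2⟩ :=
          exists_drop_word (K₁ := K₁) φ ξ hφ1 (W b'.2.1) (- lev φ ξ b'.1) ⟨a, ha, hφa⟩
        refine ⟨a', ν, h1, fun γ hγ1 hγa => ?_⟩
        have h3 := h2 γ hγ1 hγa
        have h4 := cnt_rwW_le φ ξ γ hγ1 (- lev φ ξ b'.1) b'.1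
        have h5 := meas_rw_le φ ξ γ hγ1 W c
        simp only [List.map_cons, meas_cons, rwB, rwS]
        omega
    · obtain ⟨a', ν, h1, h2⟩ := ih ⟨b', hb'', a, ha, hφa⟩
      refine ⟨a', ν, h1, fun γ hγ1 hγa => ?_⟩
      have h3 := h2 γ hγ1 hγa
      have h4 := cnt_rwW_le φ ξ γ hγ1 (- lev φ ξ b.1) b.1
      have h5 := cnt_rwW_le φ ξ γ hγ1 (- lev φ ξ b.1) (W b.2.1)
      simp only [List.map_cons, meas_cons, rwB, rwS]
      omega

end CoverCount

end

end Vale.Agent.P174
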