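import Vale.Agent.P174.Defs
import Vale.Agent.P174.Cert

namespace Vale.Agent.P174

noncomputable section

open Monoid.Coprod

universe u

section Matrix

variable {K : Type u} [Group K] {n : ℕ}

lemma expSum_uev (w : Word K (Fin n)) (j : Fin n) :
    Multiplicative.toAdd (expSum K n (uev w)) j = expo ℤ w j := by
  induction w with
  | nil => simp [uev]
  | cons l w ih =>
    simp only [uev, ev_cons, map_mul, toAdd_mul, Pi.add_apply, expo_cons, Finsupp.add_apply] at ih ⊢
    rw [ih]
    congr 1
    rcases l with s | ⟨x, _ | _⟩
    · simp [evL, expSum, expoL]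
    · simp [evL, expSum, expoL, Finsupp.single_apply, Pi.single_apply, eq_comm]
    · simp [evL, expSum, expoL, Finsupp.single_apply, Pi.single_apply, eq_comm]

lemma nonsingularMod_iff (p : ℕ) [Fact p.Prime] {m : ℕ}
    (w : Fin m → Monoid.Coprod K (FreeGroup (Fin n))) :
    NonsingularMod p w ↔
      LinearIndependent (ZMod p) (fun i => fun j => ((expMatrix w i j : ℤ) : ZMod p)) := by
  unfold NonsingularMod
  rw [Matrix.rank_eq_finrank_span_row, linearIndependent_iff_card_eq_finrank_span,
    Fintype.card_fin, eq_comm]
  rfl

lemma nonsingular_iff {m : ℕ}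
    (w : Fin m → Monoid.Coprod K (FreeGroup (Fin n))) :
    Nonsingular w ↔
      LinearIndependent ℚ (fun i => fun j => ((expMatrix w i j : ℤ) : ℚ)) := by
  unfold Nonsingular
  rw [Matrix.rank_eq_finrank_span_row, linearIndependent_iff_card_eq_finrank_span,
    Fintype.card_fin, eq_comm]
  rfl

end Matrix

section Subst

variable {K : Type u} [Group K] {X : Type} {n : ℕ} (X₀ : Finset X) (e : X₀ ≃ Fin n)

open Classical in
def substL : K ⊕ (X × Bool) → K ⊕ (Fin n × Bool)
  | Sum.inl s => Sum.inl s
  | Sum.inr (x, b) => if hx : x ∈ X₀ then Sum.inr (e ⟨x, hx⟩, b) else Sum.inl 1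

open Classical in
def substH {H : Type*} [Group H] (h' : Fin n → H) : X → H :=
  fun x => if hx : x ∈ X₀ then h' (e ⟨x, hx⟩) else 1

lemma ev_subst {H : Type*} [Group H] (f : K →* H) (h' : Fin n → H) (w : Word K X) :
    ev f h' (w.map (substL X₀ e)) = ev f (substH X₀ e h') w := by
  induction w with
  | nil => simp
  | cons l w ih =>
    simp only [List.map_cons, ev_cons, ih]
    congr 1
    rcases l with s | ⟨x, _ | _⟩
    · simp [evL, substL]
    · by_cases hx : x ∈ X₀ <;> simp [evL, substL, substH, hx]
    · by_cases hx : x ∈ X₀ <;> simp [evL, substL, substH, hx]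

lemma expo_subst (R : Type*) [Ring R] (w : Word K X) (j : Fin n) :
    expo R (w.map (substL X₀ e)) j = expo R w (e.symm j : X) := by
  classical
  induction w with
  | nil => simp
  | cons l w ih =>
    simp only [List.map_cons, expo_cons, Finsupp.add_apply, ih]
    congr 1
    rcases l with s | ⟨x, b⟩
    · simp [expoL, substL]
    · by_cases hx : x ∈ X₀
      · have key : (e ⟨x, hx⟩ = j) ↔ (x = (e.symm j : X)) := by
          constructor
          · rintro rfl; simp
          · intro h
            apply e.symm.injective
            apply Subtype.ext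
            simpa using h
        cases b <;> simp [expoL, substL, hx, Finsupp.single_apply, key]
      · have key : x ≠ (e.symm j : X) := by
          intro h
          exact hx (h ▸ (e.symm j).2)
        cases b <;> simp [expoL, substL, hx, Finsupp.single_apply, key]

end Subst

theorem finish {p : ℕ} [Fact p.Prime] {K : Type u} [Group K] (hK : HowiePropertyMod p K)
    {I X : Type} (W : I → Word K X) (c : List (Block K X I)) (g : K)
    (hns : LinearIndependent (ZMod p) fun i => expo (ZMod p) (W i))
    (hv : Valid W c g) : g = 1 := by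
  classical
  set I₀ : Finset I := (c.map fun b => b.2.1).toFinset with hI₀
  set X₀ : Finset X := I₀.biUnion fun i => (expo (ZMod p) (W i)).support with hX₀
  set d : I₀ ≃ Fin I₀.card := I₀.equivFin
  set e : X₀ ≃ Fin X₀.card := X₀.equivFin
  set w' : Fin I₀.card → Monoid.Coprod K (FreeGroup (Fin X₀.card)) :=
    fun k => uev ((W (d.symm k : I)).map (substL X₀ e)) with hw'
  have hns' : NonsingularMod p w' := by
    rw [nonsingularMod_iff]
    have h1 : LinearIndependent (ZMod p)
        (fun k : Fin I₀.card => expo (ZMod p) (W (d.symm k : I))) :=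
      hns.comp (fun k : Fin I₀.card => (d.symm k : I))
        (Subtype.val_injective.comp d.symm.injective)
    set ρ : (X →₀ ZMod p) →ₗ[ZMod p] (Fin X₀.card → ZMod p) :=
      LinearMap.pi (fun j => Finsupp.lapply (e.symm j : X)) with hρ
    have h2 : LinearIndependent (ZMod p)
        (ρ ∘ fun k : Fin I₀.card => expo (ZMod p) (W (d.symm k : I))) := by
      apply h1.map
      rw [Submodule.disjoint_def]
      intro x hx hx'
      have hsup : x ∈ Finsupp.supported (ZMod p) (ZMod p) (X₀ : Set X) := by
        have : Submodule.span (ZMod p)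
            (Set.range fun k : Fin I₀.card => expo (ZMod p) (W (d.symm k : I))) ≤
            Finsupp.supported (ZMod p) (ZMod p) (X₀ : Set X) := by
          rw [Submodule.span_le]
          rintro _ ⟨k, rfl⟩
          rw [SetLike.mem_coe, Finsupp.mem_supported]
          intro y hy
          rw [Finset.mem_coe, hX₀, Finset.mem_biUnion]
          exact ⟨(d.symm k : I), (d.symm k).2, hy⟩
        exact this hx
      ext y
      by_cases hy : y ∈ X₀
      · have := congrFun (LinearMap.mem_ker.mp hx') (e ⟨y, hy⟩)
        simpa [hρ] using this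
      · rw [Finsupp.mem_supported] at hsup
        by_contra hne
        exact hy (hsup (Finsupp.mem_support_iff.mpr hne))
    convert h2 using 1
    funext k j
    simp only [expMatrix, Matrix.of_apply, hw', expSum_uev, Function.comp, hρ, LinearMap.pi_apply,
      Finsupp.lapply_apply]
    rw [← expo_cast, expo_subst]
  obtain ⟨H, _, f, h', hf, hsol⟩ := hK _ _ w' hns'
  have h3 : ∀ b ∈ c, ev f (substH X₀ e h') (W b.2.1) = 1 := by
    intro b hb
    have hbI : b.2.1 ∈ I₀ := by
      rw [hI₀, List.mem_toFinset, List.mem_map]
      exact ⟨b, hb, rfl⟩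
    have := hsol (d ⟨b.2.1, hbI⟩)
    simp only [hw', Equiv.symm_apply_apply, lift_uev, ev_subst] at this
    exact this
  have h4 := hv.apply f (substH X₀ e h')
  rw [evC_eq_one _ _ _ _ h3] at h4
  exact hf (h4.trans (map_one f).symm)

end

end Vale.Agent.P174
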