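import Vale.Agent.P174.Restrict
import Vale.Agent.P174.CoverExpo
import Vale.Agent.P174.Finish

namespace Vale.Agent.P174

noncomputable section

open Monoid.Coprod

universe u

lemma exists_functional {F V I : Type*} [Field F] [AddCommGroup V] [Module F V] (v : I → V)
    (hv : LinearIndependent F v) (b : I → F) : ∃ Ξ : V →ₗ[F] F, ∀ i, Ξ (v i) = b i := by
  obtain ⟨Ξ, hΞ⟩ := LinearMap.exists_extend ((Finsupp.linearCombination F b) ∘ₗ hv.repr)
  refine ⟨Ξ, fun i => ?_⟩
  have h1 : v i ∈ Submodule.span F (Set.range v) := Submodule.subset_span ⟨i, rfl⟩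
  have h2 := congrArg (fun f => f ⟨v i, h1⟩) hΞ
  simp only [LinearMap.comp_apply, Submodule.subtype_apply] at h2
  rw [h2, hv.repr_eq_single i ⟨v i, h1⟩ rfl]
  simp

section Aux

variable {K X F : Type*} [Group K] [Field F]

lemma lev_eq (φ : K → F) (Ξ : (X →₀ F) →ₗ[F] F) (w : Word K X) :
    lev φ (fun x => Ξ (Finsupp.single x 1)) w = lev φ (fun _ => 0) w + Ξ (expo F w) := by
  induction w with
  | nil => simp
  | cons l w ih =>
    simp only [lev_cons, expo_cons, map_add, ih]
    rcases l with s | ⟨x, _ | _⟩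
    · simp only [levL, expoL, map_zero]; ring
    · simp only [levL, expoL]
      rw [show (Finsupp.single x (-1) : X →₀ F) = - Finsupp.single x 1 by simp, map_neg]
      ring
    · simp only [levL, expoL]; ring

end Aux

lemma ev_mult {K X A : Type*} [Group K] [AddCommGroup A] (ψ : K →* Multiplicative A) (ξ : X → A)
    (w : Word K X) :
    ev ψ (fun x => Multiplicative.ofAdd (ξ x)) w =
      Multiplicative.ofAdd (lev (fun s => Multiplicative.toAdd (ψ s)) ξ w) := by
  induction w with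
  | nil => simp
  | cons l w ih =>
    simp only [ev_cons, lev_cons, ih, ofAdd_add]
    have : evL ψ (fun x => Multiplicative.ofAdd (ξ x)) l =
        Multiplicative.ofAdd (levL (fun s => Multiplicative.toAdd (ψ s)) ξ l) := by
      rcases l with s | ⟨x, _ | _⟩ <;> simp [evL, levL]
    rw [this]

def ClassC (p : ℕ) (K : Type u) [Group K] : Prop :=
  ∀ (K' : Type u) [Group K'] (j : K' →* K), Function.Injective j → Group.FG K' →
    (∀ ψ : K' →* Multiplicative (ZMod p), ψ = 1) → HowiePropertyMod p K'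

lemma ClassC.of_injective {p : ℕ} {K K' : Type u} [Group K] [Group K'] (h : ClassC p K)
    (j : K' →* K) (hj : Function.Injective j) : ClassC p K' :=
  fun K'' _ j' hj' hfg hψ => h K'' (j.comp j') (hj.comp hj') hfg hψ

lemma finite_letters {K X I : Type*} (W : I → Word K X) (c : List (Block K X I)) :
    {s : K | ∃ b ∈ c, Sum.inl s ∈ b.1 ∨ Sum.inl s ∈ W b.2.1}.Finite := by
  have h1 : ∀ w : Word K X, {s : K | Sum.inl s ∈ w}.Finite := fun w =>
    Set.Finite.preimage (Sum.inl_injective.injOn) (List.finite_toSet w)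
  have h2 : {s : K | ∃ b ∈ c, Sum.inl s ∈ b.1 ∨ Sum.inl s ∈ W b.2.1} =
      ⋃ b ∈ {b | b ∈ c}, ({s : K | Sum.inl s ∈ b.1} ∪ {s : K | Sum.inl s ∈ W b.2.1}) := by
    ext s
    simp
  rw [h2]
  exact Set.Finite.biUnion (List.finite_toSet c) (fun b _ => (h1 _).union (h1 _))

theorem core (p : ℕ) [Fact p.Prime] : ∀ (k : ℕ) (K : Type u) [Group K], ClassC p K →
    ∀ (I X : Type) (W : I → Word K X) (c : List (Block K X I)) (g : K),
    LinearIndependent (ZMod p) (fun i => expo (ZMod p) (W i)) → Valid W c g →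
    meas W c ≤ k → g = 1 := by
  intro k
  induction k using Nat.strong_induction_on with
  | _ k ih =>
  intro K _ hC I X W c g hns hv hk
  set S : Set K := {g} ∪ {s : K | ∃ b ∈ c, Sum.inl s ∈ b.1 ∨ Sum.inl s ∈ W b.2.1} with hS
  have hSfin : S.Finite := (Set.finite_singleton g).union (finite_letters W c)
  set K₀ : Subgroup K := Subgroup.closure S with hK₀
  have hFG : Group.FG K₀ :=
    (Group.fg_iff_subgroup_fg K₀).2 ((Subgroup.fg_iff K₀).2 ⟨S, rfl, hSfin⟩)
  have hgK : g ∈ K₀ := Subgroup.subset_closure (by simp [hS])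
  have hcK : ∀ b ∈ c, LettersIn K₀ b.1 ∧ LettersIn K₀ (W b.2.1) := by
    intro b hb
    constructor
    · intro s hs
      exact Subgroup.subset_closure (Or.inr ⟨b, hb, Or.inl hs⟩)
    · intro s hs
      exact Subgroup.subset_closure (Or.inr ⟨b, hb, Or.inr hs⟩)
  set W₀ : I → Word K₀ X := fun i => retrW K₀ (W i) with hW₀
  set c₀ : List (Block K₀ X I) := c.map (retrB K₀) with hc₀
  set g₀ : K₀ := retr K₀ g with hg₀
  have hv₀ : Valid W₀ c₀ g₀ := valid_restrict K₀ W c g hv hgK hcK
  have hns₀ : LinearIndependent (ZMod p) (fun i => expo (ZMod p) (W₀ i)) := by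
    simpa only [hW₀, expo_retrW] using hns
  have hm₀ : meas W₀ c₀ ≤ meas W c := meas_retr K₀ W c
  have hg₀' : g₀ = ⟨g, hgK⟩ := retr_of_mem K₀ hgK
  suffices hfin : g₀ = 1 by
    rw [hg₀'] at hfin
    exact congrArg Subtype.val hfin
  by_cases hψ : ∀ ψ : K₀ →* Multiplicative (ZMod p), ψ = 1
  · exact finish (hC K₀ K₀.subtype K₀.subtype_injective hFG hψ) W₀ c₀ g₀ hns₀ hv₀
  · push Not at hψ
    obtain ⟨ψ, hψ1⟩ := hψ
    set φ : K₀ → ZMod p := fun s => Multiplicative.toAdd (ψ s) with hφdef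
    have hφ : ∀ a b, φ (a * b) = φ a + φ b := by
      intro a b
      simp [hφdef]
    have hφ1 : φ 1 = 0 := by simp [hφdef]
    obtain ⟨Ξ, hΞ⟩ := exists_functional _ hns₀ (fun i => - lev φ (fun _ => 0) (W₀ i))
    set ξ : X → ZMod p := fun x => Ξ (Finsupp.single x 1) with hξ
    have hlev : ∀ i, lev φ ξ (W₀ i) = 0 := by
      intro i
      rw [hξ, lev_eq, hΞ]
      ring
    have hψg : ψ g₀ = 1 := by
      rw [hv₀.apply ψ (fun x => Multiplicative.ofAdd (ξ x))]
      apply evC_eq_one
      intro b _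
      rw [ev_mult]
      change Multiplicative.ofAdd (lev φ ξ (W₀ b.2.1)) = 1
      rw [hlev]
      rfl
    have hφg : φ g₀ = 0 := by simp [hφdef, hψg]
    have hex : ∃ b ∈ c₀, ∃ a, (Sum.inl a ∈ b.1 ∨ Sum.inl a ∈ W₀ b.2.1) ∧ φ a ≠ 0 := by
      by_contra hcon
      push Not at hcon
      apply hψ1
      ext1 x
      obtain ⟨x, hx⟩ := x
      change ψ ⟨x, hx⟩ = 1
      induction hx using Subgroup.closure_induction with
      | mem y hy =>
        rcases hy with hy | ⟨b, hb, hy⟩
        · have : y = g := hy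
          subst this
          rw [← hψg, hg₀']
        · have hyK : y ∈ K₀ := Subgroup.subset_closure (Or.inr ⟨b, hb, hy⟩)
          have hb₀ : retrB K₀ b ∈ c₀ := List.mem_map.mpr ⟨b, hb, rfl⟩
          have h0 : φ ⟨y, hyK⟩ = 0 := by
            apply hcon _ hb₀
            rcases hy with hy | hy
            · left
              refine List.mem_map.mpr ⟨Sum.inl y, hy, ?_⟩
              simp [retrL, retr_of_mem K₀ hyK]
            · right
              refine List.mem_map.mpr ⟨Sum.inl y, hy, ?_⟩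
              simp [retrL, retr_of_mem K₀ hyK]
          exact h0
      | one => exact map_one ψ
      | mul a b ha hb iha ihb =>
        have : (⟨a * b, K₀.mul_mem ha hb⟩ : K₀) = ⟨a, ha⟩ * ⟨b, hb⟩ := rfl
        rw [this, map_mul, iha, ihb, one_mul]
      | inv a ha iha =>
        have : (⟨a⁻¹, K₀.inv_mem ha⟩ : K₀) = (⟨a, ha⟩ : K₀)⁻¹ := rfl
        rw [this, map_inv, iha, inv_one]
    obtain ⟨a, ν, hφa, hdrop⟩ := exists_drop_cert (K₁ := ψ.ker) φ ξ hφ1 W₀ c₀ hex
    have hφpow : ∀ n : ℕ, φ (a ^ n) = (n : ZMod p) * φ a := by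
      intro n
      induction n with
      | zero => simp [hφ1]
      | succ n ihn => rw [pow_succ, hφ, ihn]; push_cast; ring
    set c0 : ZMod p → K₀ := fun μ => a ^ (μ * (φ a)⁻¹).val with hc0
    have hc0φ : ∀ μ, φ (c0 μ) = μ := by
      intro μ
      rw [hc0, hφpow, ZMod.natCast_zmod_val, mul_assoc, inv_mul_cancel₀ hφa, mul_one]
    set cc : ZMod p → K₀ := Function.update c0 (ν + φ a) (a * c0 ν) with hcc
    have hccφ : ∀ μ, φ (cc μ) = μ := by
      intro μ
      by_cases hμ : μ = ν + φ a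
      · subst hμ
        rw [hcc, Function.update_self, hφ, hc0φ, add_comm]
      · rw [hcc, Function.update_of_ne hμ, hc0φ]
    have hφinv : ∀ s, φ s⁻¹ = - φ s := by
      intro s
      simp [hφdef]
    have hmem : ∀ (μ : ZMod p) (s : K₀), (cc (μ + φ s))⁻¹ * s * cc μ ∈ ψ.ker := by
      intro μ s
      rw [MonoidHom.mem_ker]
      have : φ ((cc (μ + φ s))⁻¹ * s * cc μ) = 0 := by
        rw [hφ, hφ, hφinv, hccφ, hccφ]
        ring
      exact this
    set γ : ZMod p → K₀ → ψ.ker := fun μ s => ⟨(cc (μ + φ s))⁻¹ * s * cc μ, hmem μ s⟩ with hγdef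
    have hγ : ∀ μ a b, γ μ (a * b) = γ (μ + φ b) a * γ μ b := by
      intro μ a b
      apply Subtype.ext
      simp only [hγdef, Subgroup.coe_mul, hφ]
      rw [show μ + (φ a + φ b) = μ + φ b + φ a by ring]
      group
    have hγ1 : ∀ μ, γ μ 1 = 1 := gam_one hφ hγ
    have hγa : γ ν a = 1 := by
      apply Subtype.ext
      have hne : ν ≠ ν + φ a := by
        intro h
        apply hφa
        have := h.symm
        simpa using this
      simp only [hγdef, hcc, Function.update_self, Function.update_of_ne hne, Subgroup.coe_one]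
      group
    have hlt := hdrop γ hγ1 hγa
    have hv₁ := valid_cover ξ hφ hγ W₀ c₀ g₀ hv₀ (fun b _ => hlev b.2.1)
    have hns₁ := nonsingular_cover φ ξ γ W₀ hns₀
    have hC₁ : ClassC p ψ.ker :=
      hC.of_injective (K₀.subtype.comp ψ.ker.subtype)
        (K₀.subtype_injective.comp ψ.ker.subtype_injective)
    have h1 := ih _ (lt_of_lt_of_le hlt (hm₀.trans hk)) ψ.ker hC₁ (I × ZMod p) (X × ZMod p)
      (rwS φ ξ γ W₀) (c₀.map (rwB φ ξ γ)) (γ 0 g₀) hns₁ hv₁ le_rfl
    have h2 := congrArg Subtype.val h1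
    simp only [hγdef, hφg, add_zero, Subgroup.coe_one] at h2
    have h3 : g₀ = cc 0 * 1 * (cc 0)⁻¹ := by
      rw [← h2]
      group
    simpa using h3

end

end Vale.Agent.P174
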