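import Vale.Agent.P174.Cert

namespace Vale.Agent.P174

noncomputable section

open Monoid.Coprod

section Cover

variable {K K₁ X I F H' : Type*} [Group K] [Group K₁] [AddCommGroup F] [Group H']
variable (φ : K → F) (ξ : X → F) (γ : F → K → K₁)

def levL : K ⊕ (X × Bool) → F
  | Sum.inl s => φ s
  | Sum.inr (x, true) => ξ x
  | Sum.inr (x, false) => - ξ x

def lev (w : Word K X) : F := (w.map (levL φ ξ)).sum

@[simp] lemma lev_nil : lev φ ξ ([] : Word K X) = 0 := rfl

@[simp] lemma lev_cons (l : K ⊕ (X × Bool)) (w : Word K X) :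
    lev φ ξ (l :: w) = levL φ ξ l + lev φ ξ w := by simp [lev]

def rwL (ν : F) : K ⊕ (X × Bool) → K₁ ⊕ ((X × F) × Bool)
  | Sum.inl s => Sum.inl (γ ν s)
  | Sum.inr (x, true) => Sum.inr ((x, ν), true)
  | Sum.inr (x, false) => Sum.inr ((x, ν - ξ x), false)

def rwW (μ : F) : Word K X → Word K₁ (X × F)
  | [] => []
  | l :: w => rwL ξ γ (μ + lev φ ξ w) l :: rwW μ w

@[simp] lemma rwW_nil (μ : F) : rwW φ ξ γ μ ([] : Word K X) = [] := rfl

@[simp] lemma rwW_cons (μ : F) (l : K ⊕ (X × Bool)) (w : Word K X) :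
    rwW φ ξ γ μ (l :: w) = rwL ξ γ (μ + lev φ ξ w) l :: rwW φ ξ γ μ w := rfl

def rwB (b : Block K X I) : Block K₁ (X × F) (I × F) :=
  (rwW φ ξ γ (- lev φ ξ b.1) b.1, (b.2.1, - lev φ ξ b.1), b.2.2)

def rwS (W : I → Word K X) : I × F → Word K₁ (X × F) := fun q => rwW φ ξ γ q.2 (W q.1)

variable (f' : K₁ →* H') (h' : X × F → H')

def actFun (s : K) (q : H' × F) : H' × F := (f' (γ q.2 s) * q.1, q.2 + φ s)

variable {φ γ}
variable (hφ : ∀ a b, φ (a * b) = φ a + φ b)
variable (hγ : ∀ μ a b, γ μ (a * b) = γ (μ + φ b) a * γ μ b)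

include hφ in
lemma phi_one : φ 1 = 0 := by
  have := hφ 1 1
  simpa using this

include hφ hγ in
lemma gam_one (μ : F) : γ μ 1 = 1 := by
  have := hγ μ 1 1
  rw [phi_one hφ, add_zero, mul_one] at this
  simpa using this

include hφ hγ in
lemma actFun_mul (a b : K) (q : H' × F) :
    actFun φ γ f' (a * b) q = actFun φ γ f' a (actFun φ γ f' b q) := by
  simp only [actFun, hγ, hφ, map_mul, mul_assoc]
  ext
  · rfl
  · simp only; abel

include hφ hγ in
lemma actFun_one (q : H' × F) : actFun φ γ f' 1 q = q := by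
  simp [actFun, gam_one hφ hγ, phi_one hφ]

def actK : K →* Equiv.Perm (H' × F) where
  toFun s :=
    { toFun := actFun φ γ f' s
      invFun := actFun φ γ f' s⁻¹
      left_inv := fun q => by rw [← actFun_mul f' hφ hγ, inv_mul_cancel, actFun_one f' hφ hγ]
      right_inv := fun q => by rw [← actFun_mul f' hφ hγ, mul_inv_cancel, actFun_one f' hφ hγ] }
  map_one' := by
    ext q : 1
    exact actFun_one f' hφ hγ q
  map_mul' a b := by
    ext q : 1
    exact actFun_mul f' hφ hγ a b q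

lemma actK_apply (s : K) (q : H' × F) : actK f' hφ hγ s q = actFun φ γ f' s q := rfl

def actX (x : X) : Equiv.Perm (H' × F) where
  toFun q := (h' (x, q.2) * q.1, q.2 + ξ x)
  invFun q := ((h' (x, q.2 - ξ x))⁻¹ * q.1, q.2 - ξ x)
  left_inv q := by simp
  right_inv q := by simp

lemma actX_apply (x : X) (q : H' × F) : actX ξ h' x q = (h' (x, q.2) * q.1, q.2 + ξ x) := rfl

lemma actX_inv_apply (x : X) (q : H' × F) :
    (actX ξ h' x)⁻¹ q = ((h' (x, q.2 - ξ x))⁻¹ * q.1, q.2 - ξ x) := rfl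

lemma ev_act (w : Word K X) (a : H') (μ : F) :
    ev (actK f' hφ hγ) (actX ξ h') w (a, μ) =
      (ev f' h' (rwW φ ξ γ μ w) * a, μ + lev φ ξ w) := by
  induction w with
  | nil => simp
  | cons l w ih =>
    rw [ev_cons, Equiv.Perm.mul_apply, ih]
    rcases l with s | ⟨x, _ | _⟩
    · simp only [evL, actK_apply, actFun, rwW_cons, rwL, ev_cons, lev_cons, levL, mul_assoc]
      ext
      · rfl
      · simp only; abel
    · simp only [evL, actX_inv_apply, rwW_cons, rwL, ev_cons, lev_cons, levL, mul_assoc]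
      ext
      · rfl
      · simp only; abel
    · simp only [evL, actX_apply, rwW_cons, rwL, ev_cons, lev_cons, levL, mul_assoc]
      ext
      · rfl
      · simp only; abel

lemma ev_act_inv (w : Word K X) (a : H') (μ : F) :
    (ev (actK f' hφ hγ) (actX ξ h') w)⁻¹ (a, μ + lev φ ξ w) =
      ((ev f' h' (rwW φ ξ γ μ w))⁻¹ * a, μ) := by
  rw [Equiv.Perm.inv_eq_iff_eq, ev_act]
  simp

lemma sg_act (e : Bool) (w : Word K X) (hw : lev φ ξ w = 0) (a : H') (μ : F) :
    sg e (ev (actK f' hφ hγ) (actX ξ h') w) (a, μ) =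
      (sg e (ev f' h' (rwW φ ξ γ μ w)) * a, μ) := by
  cases e
  · have := ev_act_inv ξ f' h' hφ hγ w a μ
    rw [hw, add_zero] at this
    simpa [sg] using this
  · have := ev_act ξ f' h' hφ hγ w a μ
    rw [hw, add_zero] at this
    simpa [sg] using this

lemma evB_act (W : I → Word K X) (b : Block K X I) (hb : lev φ ξ (W b.2.1) = 0) (a : H') :
    evB (actK f' hφ hγ) (actX ξ h') W b (a, 0) =
      (evB f' h' (rwS φ ξ γ W) (rwB φ ξ γ b) * a, 0) := by
  obtain ⟨u, i, e⟩ := b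
  simp only [evB, Equiv.Perm.mul_apply]
  have h1 := ev_act_inv ξ f' h' hφ hγ u a (- lev φ ξ u)
  rw [neg_add_cancel] at h1
  rw [h1, sg_act ξ f' h' hφ hγ e (W i) hb, ev_act]
  simp [rwS, rwB, mul_assoc]

lemma evC_act (W : I → Word K X) (c : List (Block K X I))
    (hc : ∀ b ∈ c, lev φ ξ (W b.2.1) = 0) (a : H') :
    evC (actK f' hφ hγ) (actX ξ h') W c (a, 0) =
      (evC f' h' (rwS φ ξ γ W) (c.map (rwB φ ξ γ)) * a, 0) := by
  induction c generalizing a with
  | nil => simp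
  | cons b c ih =>
    rw [evC_cons, Equiv.Perm.mul_apply, ih (fun b' hb' => hc b' (by simp [hb'])),
      evB_act ξ f' h' hφ hγ W b (hc b (by simp))]
    simp [mul_assoc]

include hφ hγ in
lemma valid_cover (W : I → Word K X) (c : List (Block K X I)) (g : K) (hv : Valid W c g)
    (hc : ∀ b ∈ c, lev φ ξ (W b.2.1) = 0) :
    Valid (rwS φ ξ γ W) (c.map (rwB φ ξ γ)) (γ 0 g) := by
  have h1 := hv.apply
    (actK (inl : K₁ →* Monoid.Coprod K₁ (FreeGroup (X × F))) hφ hγ)
    (actX ξ (fun x => inr (FreeGroup.of x)))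
  have h2 := congrArg (fun σ => (σ (1, 0)).1) h1
  simp only [evC_act ξ _ _ hφ hγ W c hc, actK_apply, actFun, mul_one] at h2
  exact h2

end Cover

end

end Vale.Agent.P174
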