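import Mathlib

namespace Vale.Agent.P174

universe u

/-- The exponent-sum homomorphism from `G * F_n` to `Z^n`: it kills `G` and sends the
`j`-th free generator to the `j`-th unit vector. -/
def expSum (G : Type u) [Group G] (n : ℕ) :
    Monoid.Coprod G (FreeGroup (Fin n)) →* Multiplicative (Fin n → ℤ) :=
  Monoid.Coprod.lift 1 (FreeGroup.lift fun j => Multiplicative.ofAdd (Pi.single j 1))

/-- The exponent-sum matrix of a finite system `w_1, ..., w_m` in `G * F_n`. -/
def expMatrix {G : Type u} [Group G] {m n : ℕ}
    (w : Fin m → Monoid.Coprod G (FreeGroup (Fin n))) : Matrix (Fin m) (Fin n) ℤ :=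
  Matrix.of fun i j => Multiplicative.toAdd (expSum G n (w i)) j

/-- The system is nonsingular: the rational rank of the exponent-sum matrix is `m`. -/
def Nonsingular {G : Type u} [Group G] {m n : ℕ}
    (w : Fin m → Monoid.Coprod G (FreeGroup (Fin n))) : Prop :=
  ((expMatrix w).map (Int.cast : ℤ → ℚ)).rank = m

/-- The system is nonsingular modulo `p`: the rank over `Z/p` of the exponent-sum matrix is `m`. -/
def NonsingularMod (p : ℕ) {G : Type u} [Group G] {m n : ℕ}
    (w : Fin m → Monoid.Coprod G (FreeGroup (Fin n))) : Prop :=
  ((expMatrix w).map (Int.cast : ℤ → ZMod p)).rank = m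

/-- The system is solvable over `G`: some group `H` contains `G` (via an injective
homomorphism `f`) and elements `h_1, ..., h_n` at which every `w_i` evaluates to `1`. -/
def SolvableOver {G : Type u} [Group G] {m n : ℕ}
    (w : Fin m → Monoid.Coprod G (FreeGroup (Fin n))) : Prop :=
  ∃ (H : Type u) (_ : Group H) (f : G →* H) (h : Fin n → H),
    Function.Injective f ∧ ∀ i, Monoid.Coprod.lift f (FreeGroup.lift h) (w i) = 1

/-- Every nonsingular finite system over `G` is solvable over `G`. -/
def HowieProperty (G : Type u) [Group G] : Prop :=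
  ∀ (m n : ℕ) (w : Fin m → Monoid.Coprod G (FreeGroup (Fin n))),
    Nonsingular w → SolvableOver w

/-- Every finite system over `G` that is nonsingular modulo `p` is solvable over `G`. -/
def HowiePropertyMod (p : ℕ) (G : Type u) [Group G] : Prop :=
  ∀ (m n : ℕ) (w : Fin m → Monoid.Coprod G (FreeGroup (Fin n))),
    NonsingularMod p w → SolvableOver w

/-- Every nontrivial finitely generated subgroup maps onto the integers. -/
def LocallyIndicable (Q : Type u) [Group Q] : Prop :=
  ∀ K : Subgroup Q, K.FG → K ≠ ⊥ → ∃ f : K →* Multiplicative ℤ, Function.Surjective f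

end Vale.Agent.P174
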