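import Vale.Agent.P174.Core

namespace Vale.Agent.P174

noncomputable section

open Monoid.Coprod

universe u

section Transfer

variable {K K' : Type u} [Group K] [Group K']

lemma expSum_map (j : K' →* K) (n : ℕ) (y : Monoid.Coprod K' (FreeGroup (Fin n))) :
    expSum K n (Monoid.Coprod.map j (MonoidHom.id _) y) = expSum K' n y := by
  have : (expSum K n).comp (Monoid.Coprod.map j (MonoidHom.id _)) = expSum K' n := by
    apply Monoid.Coprod.hom_ext
    · ext x
      simp [expSum]
    · ext x
      simp [expSum]
  exact DFunLike.congr_fun this y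

lemma expMatrix_map (j : K' →* K) {m n : ℕ}
    (w : Fin m → Monoid.Coprod K' (FreeGroup (Fin n))) :
    expMatrix (fun i => Monoid.Coprod.map j (MonoidHom.id _) (w i)) = expMatrix w := by
  ext i k
  simp [expMatrix, expSum_map]

lemma solvableOver_of_map (j : K' →* K) (hj : Function.Injective j) {m n : ℕ}
    (w : Fin m → Monoid.Coprod K' (FreeGroup (Fin n)))
    (h : SolvableOver (fun i => Monoid.Coprod.map j (MonoidHom.id _) (w i))) :
    SolvableOver w := by
  obtain ⟨H, _, f, hh, hf, hsol⟩ := h
  refine ⟨H, inferInstance, f.comp j, hh, hf.comp hj, fun i => ?_⟩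
  have : (Monoid.Coprod.lift f (FreeGroup.lift hh)).comp
      (Monoid.Coprod.map j (MonoidHom.id _)) = Monoid.Coprod.lift (f.comp j) (FreeGroup.lift hh) := by
    apply Monoid.Coprod.hom_ext
    · ext x
      simp
    · ext x
      simp
  rw [← this]
  exact hsol i

lemma HowiePropertyMod.of_injective {p : ℕ} (h : HowiePropertyMod p K) (j : K' →* K)
    (hj : Function.Injective j) : HowiePropertyMod p K' := by
  intro m n w hw
  apply solvableOver_of_map j hj
  apply h
  unfold NonsingularMod at hw ⊢
  rw [expMatrix_map]
  exact hw

lemma HowieProperty.of_injective (h : HowieProperty K) (j : K' →* K)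
    (hj : Function.Injective j) : HowieProperty K' := by
  intro m n w hw
  apply solvableOver_of_map j hj
  apply h
  unfold Nonsingular at hw ⊢
  rw [expMatrix_map]
  exact hw

end Transfer

lemma classC_of_subgroups (p : ℕ) (G : Type u) [Group G]
    (h : ∀ K : Subgroup G, K.FG → (∀ ψ : K →* Multiplicative (ZMod p), ψ = 1) →
      HowiePropertyMod p K) : ClassC p G := by
  intro K' _ j hj hfg hψ
  have h1 : j.range.FG := by
    rw [← Group.fg_iff_subgroup_fg]
    exact Group.fg_of_surjective j.rangeRestrict_surjective
  have h2 : ∀ ψ : j.range →* Multiplicative (ZMod p), ψ = 1 := by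
    intro ψ
    have h3 := hψ (ψ.comp j.rangeRestrict)
    ext1 x
    obtain ⟨y, rfl⟩ := j.rangeRestrict_surjective x
    exact DFunLike.congr_fun h3 y
  refine (h j.range h1 h2).of_injective j.rangeRestrict ?_
  rw [MonoidHom.rangeRestrict_injective_iff]
  exact hj

theorem solvable_of_classC (p : ℕ) [Fact p.Prime] (G : Type u) [Group G] (hC : ClassC p G) :
    HowiePropertyMod p G := by
  intro m n w hw
  set N := Subgroup.normalClosure (Set.range w) with hN
  refine ⟨Monoid.Coprod G (FreeGroup (Fin n)) ⧸ N, inferInstance,
    (QuotientGroup.mk' N).comp inl, fun j => QuotientGroup.mk' N (inr (FreeGroup.of j)), ?_, ?_⟩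
  · rw [injective_iff_map_eq_one]
    intro g hg
    have hg' : (inl g : Monoid.Coprod G (FreeGroup (Fin n))) ∈ N := by
      rw [← QuotientGroup.eq_one_iff]
      exact hg
    choose W hW using fun i => uev_surjective (w i)
    have hrange : (Set.range fun i => uev (W i)) = Set.range w := by
      congr 1
      funext i
      exact hW i
    obtain ⟨c, hc⟩ := exists_cert W (inl g) (by rw [hrange]; exact hg')
    have hns : LinearIndependent (ZMod p) (fun i => expo (ZMod p) (W i)) := by
      rw [nonsingularMod_iff] at hw
      apply LinearIndependent.of_comp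
        (Finsupp.linearEquivFunOnFinite (ZMod p) (ZMod p) (Fin n)).toLinearMap
      convert hw using 1
      funext i j
      simp only [Function.comp, LinearEquiv.coe_coe, Finsupp.linearEquivFunOnFinite_apply,
        expMatrix, Matrix.of_apply, ← hW i, expSum_uev]
      exact expo_cast _ _ _
    exact core p (meas W c) G hC (Fin m) (Fin n) W c g hns hc le_rfl
  · intro i
    have : Monoid.Coprod.lift ((QuotientGroup.mk' N).comp inl)
        (FreeGroup.lift fun j => QuotientGroup.mk' N (inr (FreeGroup.of j))) =
        QuotientGroup.mk' N := by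
      apply Monoid.Coprod.hom_ext
      · ext x
        simp
      · ext x
        simp
    rw [this]
    rw [QuotientGroup.mk'_apply, QuotientGroup.eq_one_iff]
    exact Subgroup.subset_normalClosure ⟨i, rfl⟩

theorem howieMod_of_subgroups (p : ℕ) [Fact p.Prime] (G : Type u) [Group G]
    (h : ∀ K : Subgroup G, K.FG → (∀ ψ : K →* Multiplicative (ZMod p), ψ = 1) →
      HowiePropertyMod p K) : HowiePropertyMod p G :=
  solvable_of_classC p G (classC_of_subgroups p G h)

end

end Vale.Agent.P174
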