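import Vale.Agent.P174.Final

namespace Vale.Agent.P174

noncomputable section

open Monoid.Coprod

universe u

section Mat

variable {m n : ℕ}

lemma li_rat_of_li_mod (p : ℕ) [Fact p.Prime] (A : Matrix (Fin m) (Fin n) ℤ)
    (h : LinearIndependent (ZMod p) (fun i => fun j => ((A i j : ℤ) : ZMod p))) :
    LinearIndependent ℚ (fun i => fun j => ((A i j : ℤ) : ℚ)) := by
  classical
  rw [← LinearIndependent.iff_fractionRing ℤ ℚ, Fintype.linearIndependent_iff]
  intro g hg
  have hg' : ∀ j, ∑ i, g i * A i j = 0 := by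
    intro j
    have := congrFun hg j
    simp only [Finset.sum_apply, Pi.smul_apply, Pi.zero_apply] at this
    simp only [zsmul_eq_mul] at this
    exact_mod_cast this
  by_contra hne
  push Not at hne
  obtain ⟨i₀, hi₀⟩ := hne
  obtain ⟨g', hg1, hg2⟩ := Finset.extract_gcd g (s := Finset.univ) ⟨i₀, Finset.mem_univ _⟩
  have hd : Finset.univ.gcd g ≠ 0 := by
    intro h0
    rw [Finset.gcd_eq_zero_iff] at h0
    exact hi₀ (h0 i₀ (Finset.mem_univ _))
  have h1 : ∀ j, ∑ i, g' i * A i j = 0 := by
    intro j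
    have h2 := hg' j
    have h3 : ∑ i, g i * A i j = Finset.univ.gcd g * ∑ i, g' i * A i j := by
      rw [Finset.mul_sum]
      apply Finset.sum_congr rfl
      intro i _
      rw [hg1 i (Finset.mem_univ _)]
      ring
    rw [h3] at h2
    exact (mul_eq_zero.mp h2).resolve_left hd
  rw [Fintype.linearIndependent_iff] at h
  have h4 := h (fun i => ((g' i : ℤ) : ZMod p)) (by
    funext j
    simp only [Finset.sum_apply, Pi.smul_apply, smul_eq_mul, Pi.zero_apply]
    have := congrArg (Int.cast : ℤ → ZMod p) (h1 j)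
    push_cast at this
    exact this)
  have h5 : (p : ℤ) ∣ Finset.univ.gcd g' := by
    apply Finset.dvd_gcd
    intro i _
    exact (ZMod.intCast_zmod_eq_zero_iff_dvd _ _).mp (h4 i)
  rw [hg2] at h5
  have h6 := Int.eq_one_of_dvd_one (by positivity) h5
  have h7 : p = 1 := by exact_mod_cast h6
  exact (Fact.out : p.Prime).one_lt.ne' h7

lemma exists_prime_li_mod (A : Matrix (Fin m) (Fin n) ℤ)
    (h : LinearIndependent ℚ (fun i => fun j => ((A i j : ℤ) : ℚ))) :
    ∃ p : ℕ, ∃ _ : Fact p.Prime,
      LinearIndependent (ZMod p) (fun i => fun j => ((A i j : ℤ) : ZMod p)) := by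
  classical
  set B : Matrix (Fin m) (Fin m) ℤ := A * A.transpose with hB
  have hdet : B.det ≠ 0 := by
    intro h0
    set AQ : Matrix (Fin m) (Fin n) ℚ := A.map (Int.cast : ℤ → ℚ) with hAQ
    have h1 : (AQ * AQ.transpose).det = 0 := by
      have : AQ * AQ.transpose = B.map (Int.cast : ℤ → ℚ) := by
        rw [hB, hAQ]
        have := Matrix.map_mul (L := A) (M := A.transpose) (f := Int.castRingHom ℚ)
        simp only [Int.coe_castRingHom] at this
        rw [this, Matrix.transpose_map]
      rw [this]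
      have h2 := (Int.castRingHom ℚ).map_det B
      simp only [Int.coe_castRingHom, RingHom.mapMatrix_apply] at h2
      rw [← h2, h0]
      simp
    obtain ⟨v, hv0, hv⟩ := Matrix.exists_vecMul_eq_zero_iff.mpr h1
    have h3 : Matrix.vecMul v AQ = 0 := by
      rw [← dotProduct_self_eq_zero]
      have h4 : Matrix.vecMul v AQ ⬝ᵥ Matrix.vecMul v AQ =
          Matrix.vecMul v (AQ * AQ.transpose) ⬝ᵥ v := by
        rw [← Matrix.vecMul_vecMul, Matrix.vecMul_transpose, ← Matrix.dotProduct_mulVec,
          dotProduct_comm]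
      rw [h4, hv]
      simp
    apply hv0
    rw [Fintype.linearIndependent_iff] at h
    funext i
    apply h v
    rw [Matrix.vecMul_eq_sum] at h3
    exact h3
  obtain ⟨p, hp1, hp2⟩ := Nat.exists_infinite_primes (B.det.natAbs + 1)
  have : Fact p.Prime := ⟨hp2⟩
  refine ⟨p, ⟨hp2⟩, ?_⟩
  have hdetp : ((B.det : ℤ) : ZMod p) ≠ 0 := by
    intro h0
    rw [ZMod.intCast_zmod_eq_zero_iff_dvd] at h0
    have h1 := Int.natAbs_dvd_natAbs.mpr h0
    have h2 := Nat.le_of_dvd (Int.natAbs_pos.mpr hdet) h1
    simp only [Int.natAbs_natCast] at h2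
    omega
  set AP : Matrix (Fin m) (Fin n) (ZMod p) := A.map (Int.cast : ℤ → ZMod p) with hAP
  have h1 : (AP * AP.transpose).det ≠ 0 := by
    have : AP * AP.transpose = B.map (Int.cast : ℤ → ZMod p) := by
      rw [hB, hAP]
      have := Matrix.map_mul (L := A) (M := A.transpose) (f := Int.castRingHom (ZMod p))
      simp only [Int.coe_castRingHom] at this
      rw [this, Matrix.transpose_map]
    rw [this]
    have h2 := (Int.castRingHom (ZMod p)).map_det B
    simp only [Int.coe_castRingHom, RingHom.mapMatrix_apply] at h2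
    rw [← h2]
    exact hdetp
  rw [Fintype.linearIndependent_iff]
  intro g hg
  have h2 : Matrix.vecMul g AP = 0 := by
    rw [Matrix.vecMul_eq_sum]
    exact hg
  have h3 : Matrix.vecMul g (AP * AP.transpose) = 0 := by
    rw [← Matrix.vecMul_vecMul, h2, Matrix.zero_vecMul]
  have h4 := Matrix.eq_zero_of_vecMul_eq_zero h1 h3
  intro i
  exact congrFun h4 i

end Mat

lemma nonsingular_of_mod {G : Type u} [Group G] {m n : ℕ} (p : ℕ) [Fact p.Prime]
    (w : Fin m → Monoid.Coprod G (FreeGroup (Fin n))) (h : NonsingularMod p w) :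
    Nonsingular w := by
  rw [nonsingularMod_iff] at h
  rw [nonsingular_iff]
  exact li_rat_of_li_mod p _ h

lemma exists_prime_nonsingularMod {G : Type u} [Group G] {m n : ℕ}
    (w : Fin m → Monoid.Coprod G (FreeGroup (Fin n))) (h : Nonsingular w) :
    ∃ p : ℕ, ∃ _ : Fact p.Prime, NonsingularMod p w := by
  rw [nonsingular_iff] at h
  obtain ⟨p, hp, h1⟩ := exists_prime_li_mod _ h
  exact ⟨p, hp, (nonsingularMod_iff p w).mpr h1⟩

lemma hom_int_trivial {K : Type*} [Group K] (p : ℕ) [Fact p.Prime]
    (h : ∀ ψ : K →* Multiplicative (ZMod p), ψ = 1) (ψ : K →* Multiplicative ℤ) : ψ = 1 := by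
  have hp : (p : ℤ) ≠ 0 := by
    have := (Fact.out : p.Prime).pos
    positivity
  have key : ∀ (j : ℕ) (ψ : K →* Multiplicative ℤ) (k : K),
      (p : ℤ) ^ j ∣ Multiplicative.toAdd (ψ k) := by
    intro j
    induction j with
    | zero => intro ψ k; simp
    | succ j ih =>
      intro ψ k
      have h1 : ∀ k, (p : ℤ) ∣ Multiplicative.toAdd (ψ k) := by
        intro k
        have h2 := h ((AddMonoidHom.toMultiplicative (Int.castAddHom (ZMod p))).comp ψ)
        have h3 := DFunLike.congr_fun h2 k
        rw [← ZMod.intCast_zmod_eq_zero_iff_dvd]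
        exact h3
      let ψ' : K →* Multiplicative ℤ :=
        { toFun := fun k => Multiplicative.ofAdd (Multiplicative.toAdd (ψ k) / p)
          map_one' := by simp
          map_mul' := by
            intro a b
            rw [map_mul, toAdd_mul, Int.add_ediv_of_dvd_left (h1 a), ofAdd_add] }
      have h4 := ih ψ' k
      have h5 : Multiplicative.toAdd (ψ k) = p * Multiplicative.toAdd (ψ' k) := by
        change _ = (p : ℤ) * (Multiplicative.toAdd (ψ k) / p)
        rw [Int.mul_ediv_cancel' (h1 k)]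
      rw [h5, pow_succ']
      exact mul_dvd_mul_left _ h4
  ext1 k
  have h1 := key (Multiplicative.toAdd (ψ k)).natAbs ψ k
  have h2 : Multiplicative.toAdd (ψ k) = 0 := by
    apply Int.eq_zero_of_abs_lt_dvd h1
    have h3 : (Multiplicative.toAdd (ψ k)).natAbs < p ^ (Multiplicative.toAdd (ψ k)).natAbs :=
      Nat.lt_pow_self (Fact.out : p.Prime).one_lt
    rw [Int.abs_eq_natAbs]
    exact_mod_cast h3
  exact h2

theorem howie_of_subgroups (G : Type u) [Group G]
    (h : ∀ K : Subgroup G, K.FG → (∀ ψ : K →* Multiplicative ℤ, ψ = 1) → HowieProperty K) :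
    HowieProperty G := by
  intro m n w hw
  obtain ⟨p, hp, hmod⟩ := exists_prime_nonsingularMod w hw
  refine howieMod_of_subgroups p G (fun K hfg hψ => ?_) m n w hmod
  intro m' n' w' hw'
  exact h K hfg (hom_int_trivial p hψ) m' n' w' (nonsingular_of_mod p w' hw')

theorem howie_extension (G : Type u) [Group G] (N : Subgroup G) [N.Normal]
    (hQ : LocallyIndicable (G ⧸ N)) (hN : HowieProperty N) : HowieProperty G := by
  apply howie_of_subgroups
  intro K hfg hψ
  have hle : K ≤ N := by
    by_contra hnot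
    set K' : Subgroup (G ⧸ N) := K.map (QuotientGroup.mk' N) with hK'
    have h1 : K'.FG := by
      rw [Subgroup.fg_iff] at hfg ⊢
      obtain ⟨S, hS, hSf⟩ := hfg
      exact ⟨QuotientGroup.mk' N '' S, by rw [← MonoidHom.map_closure, hS], hSf.image _⟩
    have h2 : K' ≠ ⊥ := by
      intro h0
      apply hnot
      intro x hx
      have : QuotientGroup.mk' N x ∈ K' := Subgroup.mem_map_of_mem _ hx
      rw [h0, Subgroup.mem_bot] at this
      exact (QuotientGroup.eq_one_iff x).mp this
    obtain ⟨f, hf⟩ := hQ K' h1 h2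
    have h3 := hψ (f.comp ((QuotientGroup.mk' N).subgroupMap K))
    obtain ⟨y, hy⟩ := hf (Multiplicative.ofAdd 1)
    obtain ⟨x, rfl⟩ := (QuotientGroup.mk' N).subgroupMap_surjective K y
    have h4 := DFunLike.congr_fun h3 x
    simp only [MonoidHom.comp_apply, MonoidHom.one_apply] at h4
    rw [hy] at h4
    exact absurd h4 (by decide)
  exact hN.of_injective (Subgroup.inclusion hle) (Subgroup.inclusion_injective hle)

end

end Vale.Agent.P174
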