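import Vale.Agent.P174.Cert

namespace Vale.Agent.P174

noncomputable section

open Monoid.Coprod

universe u

def Fam (A B : Type u) : Bool → Type u
  | true => A
  | false => B

instance famGroup (A B : Type u) [Group A] [Group B] : ∀ b, Group (Fam A B b)
  | true => inferInstanceAs (Group A)
  | false => inferInstanceAs (Group B)

section Restrict

variable {K : Type u} [Group K] {X : Type} {I : Type*} (K₀ : Subgroup K)

open Classical in
def retr (s : K) : K₀ := if h : s ∈ K₀ then ⟨s, h⟩ else 1

lemma retr_of_mem {s : K} (h : s ∈ K₀) : retr K₀ s = ⟨s, h⟩ := by simp [retr, h]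

lemma retr_one : retr K₀ (1 : K) = 1 := by
  rw [retr_of_mem K₀ K₀.one_mem]; rfl

def retrL : K ⊕ (X × Bool) → K₀ ⊕ (X × Bool) := Sum.map (retr K₀) id

def retrW (w : Word K X) : Word K₀ X := w.map (retrL K₀)

def retrB (b : Block K X I) : Block K₀ X I := (retrW K₀ b.1, b.2)

def LettersIn (w : Word K X) : Prop := ∀ s, Sum.inl s ∈ w → s ∈ K₀

def famHom : ∀ b, K₀ →* Fam K (Monoid.Coprod K₀ (FreeGroup X)) b
  | true => K₀.subtype
  | false => inl

lemma famHom_injective : ∀ b, Function.Injective (famHom (X := X) K₀ b)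
  | true => K₀.subtype_injective
  | false => inl_injective

abbrev Push : Type u := Monoid.PushoutI (famHom (X := X) K₀)

def pT : K →* Push (X := X) K₀ := Monoid.PushoutI.of (φ := famHom (X := X) K₀) true

def pF : Monoid.Coprod K₀ (FreeGroup X) →* Push (X := X) K₀ :=
  Monoid.PushoutI.of (φ := famHom (X := X) K₀) false

lemma pF_injective : Function.Injective (pF (X := X) K₀) :=
  Monoid.PushoutI.of_injective (famHom_injective K₀) false

lemma pT_eq (s : K₀) : pT (X := X) K₀ (s : K) = pF K₀ (inl s) := by
  have h1 := Monoid.PushoutI.of_apply_eq_base (famHom (X := X) K₀) true s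
  have h2 := Monoid.PushoutI.of_apply_eq_base (famHom (X := X) K₀) false s
  exact h1.trans h2.symm

lemma ev_push (w : Word K X) (hw : LettersIn K₀ w) :
    ev (pT K₀) (fun x => pF K₀ (inr (FreeGroup.of x))) w = pF K₀ (uev (retrW K₀ w)) := by
  induction w with
  | nil => simp [retrW, uev]
  | cons l w ih =>
    have hw' : LettersIn K₀ w := fun s hs => hw s (by simp [hs])
    rw [ev_cons, ih hw']
    simp only [retrW, uev, List.map_cons, ev_cons, map_mul]
    congr 1
    rcases l with s | ⟨x, _ | _⟩
    · have hs : s ∈ K₀ := hw s (by simp)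
      simp only [evL, retrL, Sum.map_inl, retr_of_mem K₀ hs]
      exact pT_eq K₀ ⟨s, hs⟩
    · simp [evL, retrL]
    · simp [evL, retrL]

lemma valid_restrict (W : I → Word K X) (c : List (Block K X I)) (g : K)
    (hv : Valid W c g) (hg : g ∈ K₀)
    (hc : ∀ b ∈ c, LettersIn K₀ b.1 ∧ LettersIn K₀ (W b.2.1)) :
    Valid (fun i => retrW K₀ (W i)) (c.map (retrB K₀)) (retr K₀ g) := by
  have h1 := hv.apply (pT K₀) (fun x => pF K₀ (inr (FreeGroup.of x)))
  have h2 : ∀ c : List (Block K X I), (∀ b ∈ c, LettersIn K₀ b.1 ∧ LettersIn K₀ (W b.2.1)) →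
      evC (pT K₀) (fun x => pF K₀ (inr (FreeGroup.of x))) W c =
      pF K₀ (evC inl (fun x => inr (FreeGroup.of x)) (fun i => retrW K₀ (W i))
        (c.map (retrB K₀))) := by
    intro c hc
    induction c with
    | nil => simp
    | cons b c ih =>
      rw [evC_cons, ih (fun b' hb' => hc b' (by simp [hb'])), List.map_cons, evC_cons, map_mul]
      congr 1
      obtain ⟨hb1, hb2⟩ := hc b (by simp)
      simp only [evB, ev_push K₀ _ hb1, ev_push K₀ _ hb2, map_mul, map_inv, map_sg, retrB, uev]
  rw [h2 c hc] at h1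
  apply pF_injective K₀
  rw [← h1, retr_of_mem K₀ hg]
  exact (pT_eq K₀ ⟨g, hg⟩).symm

lemma cnt_retrW (w : Word K X) : cnt (retrW K₀ w) ≤ cnt w := by
  induction w with
  | nil => simp [retrW]
  | cons l w ih =>
    simp only [retrW, List.map_cons, cnt_cons] at ih ⊢
    have : cntL (retrL K₀ l) ≤ cntL l := by
      rcases l with s | x
      · by_cases hs : s = 1
        · subst hs
          simp [cntL, retrL, retr_one]
        · simp only [cntL, retrL, Sum.map_inl, hs, if_false]
          split_ifs <;> simp
      · simp [cntL, retrL]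
    omega

lemma meas_retr (W : I → Word K X) (c : List (Block K X I)) :
    meas (fun i => retrW K₀ (W i)) (c.map (retrB K₀)) ≤ meas W c := by
  induction c with
  | nil => simp
  | cons b c ih =>
    simp only [List.map_cons, meas_cons]
    have h1 := cnt_retrW K₀ b.1
    have h2 := cnt_retrW K₀ (W b.2.1)
    simp only [retrB]
    omega

lemma expo_retrW (R : Type*) [Ring R] (w : Word K X) : expo R (retrW K₀ w) = expo R w := by
  induction w with
  | nil => simp [retrW]
  | cons l w ih =>
    simp only [retrW, List.map_cons, expo_cons] at ih ⊢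
    rw [ih]
    congr 1
    rcases l with s | ⟨x, _ | _⟩ <;> simp [expoL, retrL]

end Restrict

end

end Vale.Agent.P174
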