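import Mathlib

namespace Vale.Agent.P174

open Monoid.Coprod

abbrev Word (K : Type*) (X : Type*) := List (K ⊕ (X × Bool))

abbrev Block (K : Type*) (X : Type*) (I : Type*) := Word K X × I × Bool

section Eval

variable {K X I H H' : Type*} [Group K] [Group H] [Group H']

def evL (f : K →* H) (h : X → H) : K ⊕ (X × Bool) → H
  | Sum.inl s => f s
  | Sum.inr (x, true) => h x
  | Sum.inr (x, false) => (h x)⁻¹

def ev (f : K →* H) (h : X → H) (w : Word K X) : H := (w.map (evL f h)).prod

@[simp] lemma ev_nil (f : K →* H) (h : X → H) : ev f h [] = 1 := rfl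

@[simp] lemma ev_cons (f : K →* H) (h : X → H) (l : K ⊕ (X × Bool)) (w : Word K X) :
    ev f h (l :: w) = evL f h l * ev f h w := by simp [ev]

lemma ev_append (f : K →* H) (h : X → H) (w w' : Word K X) :
    ev f h (w ++ w') = ev f h w * ev f h w' := by simp [ev]

lemma map_evL (θ : H →* H') (f : K →* H) (h : X → H) (l : K ⊕ (X × Bool)) :
    θ (evL f h l) = evL (θ.comp f) (fun x => θ (h x)) l := by
  rcases l with s | ⟨x, _ | _⟩ <;> simp [evL]

lemma map_ev (θ : H →* H') (f : K →* H) (h : X → H) (w : Word K X) :
    θ (ev f h w) = ev (θ.comp f) (fun x => θ (h x)) w := by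
  induction w with
  | nil => simp
  | cons l w ih => simp [map_evL, ih]

def sg (e : Bool) (y : H) : H := if e then y else y⁻¹

lemma map_sg (θ : H →* H') (e : Bool) (y : H) : θ (sg e y) = sg e (θ y) := by
  cases e <;> simp [sg]

@[simp] lemma sg_one (e : Bool) : sg e (1 : H) = 1 := by cases e <;> simp [sg]

def evB (f : K →* H) (h : X → H) (W : I → Word K X) (b : Block K X I) : H :=
  ev f h b.1 * sg b.2.2 (ev f h (W b.2.1)) * (ev f h b.1)⁻¹

def evC (f : K →* H) (h : X → H) (W : I → Word K X) (c : List (Block K X I)) : H :=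
  (c.map (evB f h W)).prod

@[simp] lemma evC_nil (f : K →* H) (h : X → H) (W : I → Word K X) : evC f h W [] = 1 := rfl

@[simp] lemma evC_cons (f : K →* H) (h : X → H) (W : I → Word K X) (b : Block K X I)
    (c : List (Block K X I)) : evC f h W (b :: c) = evB f h W b * evC f h W c := by
  simp [evC]

lemma evC_append (f : K →* H) (h : X → H) (W : I → Word K X) (c c' : List (Block K X I)) :
    evC f h W (c ++ c') = evC f h W c * evC f h W c' := by simp [evC]

lemma map_evB (θ : H →* H') (f : K →* H) (h : X → H) (W : I → Word K X) (b : Block K X I) :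
    θ (evB f h W b) = evB (θ.comp f) (fun x => θ (h x)) W b := by
  simp [evB, map_ev, map_sg]

lemma map_evC (θ : H →* H') (f : K →* H) (h : X → H) (W : I → Word K X)
    (c : List (Block K X I)) :
    θ (evC f h W c) = evC (θ.comp f) (fun x => θ (h x)) W c := by
  induction c with
  | nil => simp
  | cons b c ih => simp [map_evB, ih]

/-- universal evaluation in the free product -/
def uev (w : Word K X) : Monoid.Coprod K (FreeGroup X) :=
  ev inl (fun x => inr (FreeGroup.of x)) w

def Valid (W : I → Word K X) (c : List (Block K X I)) (g : K) : Prop :=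
  (inl g : Monoid.Coprod K (FreeGroup X)) = evC inl (fun x => inr (FreeGroup.of x)) W c

lemma lift_uev (f : K →* H) (h : X → H) (w : Word K X) :
    Monoid.Coprod.lift f (FreeGroup.lift h) (uev w) = ev f h w := by
  unfold uev
  rw [map_ev]
  congr 1
  funext x
  simp

lemma Valid.apply {W : I → Word K X} {c : List (Block K X I)} {g : K} (hv : Valid W c g)
    (f : K →* H) (h : X → H) : f g = evC f h W c := by
  have := congrArg (Monoid.Coprod.lift f (FreeGroup.lift h)) hv
  rw [map_evC] at this
  simpa using this

lemma evC_eq_one (f : K →* H) (h : X → H) (W : I → Word K X) (c : List (Block K X I))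
    (hc : ∀ b ∈ c, ev f h (W b.2.1) = 1) : evC f h W c = 1 := by
  induction c with
  | nil => simp
  | cons b c ih =>
    have h1 : evB f h W b = 1 := by
      simp [evB, hc b (by simp)]
    rw [evC_cons, h1, one_mul]
    exact ih (fun b' hb' => hc b' (by simp [hb']))

lemma uev_surjective : Function.Surjective (uev : Word K X → Monoid.Coprod K (FreeGroup X)) := by
  intro y
  induction y using Monoid.Coprod.induction_on with
  | inl s => exact ⟨[Sum.inl s], by simp [uev, evL]⟩
  | inr z =>
    induction z using FreeGroup.induction_on with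
    | C1 => exact ⟨[], by simp [uev]⟩
    | of x => exact ⟨[Sum.inr (x, true)], by simp [uev, evL]⟩
    | inv_of x _ => exact ⟨[Sum.inr (x, false)], by simp [uev, evL]⟩
    | mul x y hx hy =>
      obtain ⟨a, ha⟩ := hx
      obtain ⟨b, hb⟩ := hy
      exact ⟨a ++ b, by simp only [uev] at ha hb ⊢; rw [ev_append, ha, hb, map_mul]⟩
  | mul x y hx hy =>
    obtain ⟨a, ha⟩ := hx
    obtain ⟨b, hb⟩ := hy
    exact ⟨a ++ b, by simp only [uev] at ha hb ⊢; rw [ev_append, ha, hb]⟩

end Eval

end Vale.Agent.P174
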